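import Vale.Agent.P281.H4.TS.C5

/-!
# P281, T-S, block C2b: `wd` is the density of a form of degree 4
-/

open Set Filter Metric MeasureTheory Vale.Agent.P272.K
open scoped Topology ContDiff ComplexConjugate ComplexOrder

noncomputable section

namespace Vale.Agent.P281.H4.TS

open Vale.Agent.P281.H64.TK.TS

/-- Coordinates. -/
def ce : Cm 2 ≃ₗ[ℝ] (Fin 4 → ℝ) where
  toFun u := ![(u 0).re, (u 0).im, (u 1).re, (u 1).im]
  invFun c := fun k => ![(c 0 : ℂ) + c 1 * Complex.I, (c 2 : ℂ) + c 3 * Complex.I] k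
  map_add' u v := by
    funext k; fin_cases k <;> simp
  map_smul' a u := by
    funext k; fin_cases k <;> simp
  left_inv u := by
    funext k; fin_cases k <;> simp [Complex.re_add_im]
  right_inv c := by
    funext k; fin_cases k <;> simp

/-- The basis. -/
def bs : Module.Basis (Fin 4) ℝ (Cm 2) := Module.Basis.ofEquivFun ce

theorem bs_apply (k : Fin 4) : bs k = rb2 k := by
  rw [bs, Module.Basis.coe_ofEquivFun]
  funext j
  fin_cases k <;> fin_cases j <;> simp [ce, rb2]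

/-- Entries of the matrix of `L`. -/
def mt (L : Cm 2 →L[ℝ] Cm 2) (k i : Fin 4) : ℝ := ce (L (rb2 i)) k

theorem det_eq (L : Cm 2 →L[ℝ] Cm 2) : L.det = (Matrix.of (mt L)).det := by
  have h : L.det = LinearMap.det (L : Cm 2 →ₗ[ℝ] Cm 2) := rfl
  rw [h, ← LinearMap.det_toMatrix bs]
  congr 1
  ext k i
  rw [LinearMap.toMatrix_apply, bs_apply, Matrix.of_apply]
  rfl

theorem det4 (m : Fin 4 → Fin 4 → ℝ) : (Matrix.of m).det =
    (m 0 0 * m 1 1 - m 1 0 * m 0 1) * (m 2 2 * m 3 3 - m 3 2 * m 2 3) -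
    (m 0 0 * m 2 1 - m 2 0 * m 0 1) * (m 1 2 * m 3 3 - m 3 2 * m 1 3) +
    (m 0 0 * m 3 1 - m 3 0 * m 0 1) * (m 1 2 * m 2 3 - m 2 2 * m 1 3) +
    (m 1 0 * m 2 1 - m 2 0 * m 1 1) * (m 0 2 * m 3 3 - m 3 2 * m 0 3) -
    (m 1 0 * m 3 1 - m 3 0 * m 1 1) * (m 0 2 * m 2 3 - m 2 2 * m 0 3) +
    (m 2 0 * m 3 1 - m 3 0 * m 2 1) * (m 0 2 * m 1 3 - m 1 2 * m 0 3) := by
  rw [Matrix.det_succ_row_zero]
  simp only [Fin.sum_univ_four, Matrix.det_fin_three, Matrix.submatrix_apply, Matrix.of_apply]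
  simp [Fin.succAbove, Fin.lt_def]
  ring

/-- `2 × 2` minors. -/
def mn (x y : Fin 4 → ℂ) (i j : Fin 4) : ℂ := x i * y j - y i * x j

/-- The determinant with rows `x, y, z, w`, by `2 × 2` minors. -/
def S4 (x y z w : Fin 4 → ℂ) : ℂ :=
  mn x y 0 1 * mn z w 2 3 - mn x y 0 2 * mn z w 1 3 + mn x y 0 3 * mn z w 1 2 +
    mn x y 1 2 * mn z w 0 3 - mn x y 1 3 * mn z w 0 2 + mn x y 2 3 * mn z w 0 1

theorem S4_1 (x y w : Fin 4 → ℂ) : S4 x y x w = 0 := by simp only [S4, mn]; ring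
theorem S4_2 (x y w : Fin 4 → ℂ) : S4 x y y w = 0 := by simp only [S4, mn]; ring
theorem S4_3 (x y w : Fin 4 → ℂ) : S4 x y w x = 0 := by simp only [S4, mn]; ring
theorem S4_4 (x y w : Fin 4 → ℂ) : S4 x y w y = 0 := by simp only [S4, mn]; ring
theorem S4_5 (x y z w : Fin 4 → ℂ) : S4 x z y w = - S4 x y z w := by simp only [S4, mn]; ring
theorem S4_6 (x y z w : Fin 4 → ℂ) : S4 z w x y = S4 x y z w := by simp only [S4, mn]; ring
theorem S4_7 (x y z w : Fin 4 → ℂ) : S4 x w y z = S4 x y z w := by simp only [S4, mn]; ring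
theorem S4_8 (x y z w : Fin 4 → ℂ) : S4 y z x w = S4 x y z w := by simp only [S4, mn]; ring
theorem S4_9 (x y z w : Fin 4 → ℂ) : S4 y w x z = - S4 x y z w := by simp only [S4, mn]; ring

theorem exL (L : Cm 2 →L[ℝ] Cm 2) (γ : L2 2) (hγ : ∀ u v, γ u v = - γ v u) (i j : Fin 4)
    (r : Fin 4 → Fin 4 → ℂ) (hr : ∀ k i, r k i = mt L k i) :
    γ (L (rb2 i)) (L (rb2 j)) = mn (r 0) (r 1) i j * γ (rb2 0) (rb2 1) +
      mn (r 0) (r 2) i j * γ (rb2 0) (rb2 2) + mn (r 0) (r 3) i j * γ (rb2 0) (rb2 3) +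
      mn (r 1) (r 2) i j * γ (rb2 1) (rb2 2) + mn (r 1) (r 3) i j * γ (rb2 1) (rb2 3) +
      mn (r 2) (r 3) i j * γ (rb2 2) (rb2 3) := by
  have h0 : ∀ i, ((L (rb2 i)) 0).re = mt L 0 i := fun i => rfl
  have h1 : ∀ i, ((L (rb2 i)) 0).im = mt L 1 i := fun i => rfl
  have h2 : ∀ i, ((L (rb2 i)) 1).re = mt L 2 i := fun i => rfl
  have h3 : ∀ i, ((L (rb2 i)) 1).im = mt L 3 i := fun i => rfl
  rw [expand γ hγ]
  simp only [mn, hr, h0, h1, h2, h3]
  push_cast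
  ring

theorem wd_det : WdStmt := by
  intro L a b a' b' ha' hb' ha hb
  obtain ⟨r, hr⟩ : ∃ r : Fin 4 → Fin 4 → ℂ, ∀ k i, r k i = mt L k i := ⟨_, fun _ _ => rfl⟩
  have hd : (L.det : ℂ) = S4 (r 0) (r 1) (r 2) (r 3) := by
    rw [det_eq, det4]
    simp only [S4, mn, hr]
    push_cast
    ring
  rw [hd, wd, wd]
  simp only [ha, hb, exL L a' ha' _ _ r hr, exL L b' hb' _ _ r hr]
  generalize a' (rb2 0) (rb2 1) = a01
  generalize a' (rb2 0) (rb2 2) = a02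
  generalize a' (rb2 0) (rb2 3) = a03
  generalize a' (rb2 1) (rb2 2) = a12
  generalize a' (rb2 1) (rb2 3) = a13
  generalize a' (rb2 2) (rb2 3) = a23
  generalize b' (rb2 0) (rb2 1) = b01
  generalize b' (rb2 0) (rb2 2) = b02
  generalize b' (rb2 0) (rb2 3) = b03
  generalize b' (rb2 1) (rb2 2) = b12
  generalize b' (rb2 1) (rb2 3) = b13
  generalize b' (rb2 2) (rb2 3) = b23
  generalize r 0 = x
  generalize r 1 = y
  generalize r 2 = z
  generalize r 3 = w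
  have e01 : ∀ c d : Fin 4 → ℂ, S4 c d c d = 0 := fun c d => S4_1 c d d
  trans a01 * (b01 * S4 x y x y + b02 * S4 x y x z + b03 * S4 x y x w + b12 * S4 x y y z +
      b13 * S4 x y y w + b23 * S4 x y z w) +
    a02 * (b01 * S4 x z x y + b02 * S4 x z x z + b03 * S4 x z x w + b12 * S4 x z y z +
      b13 * S4 x z y w + b23 * S4 x z z w) +
    a03 * (b01 * S4 x w x y + b02 * S4 x w x z + b03 * S4 x w x w + b12 * S4 x w y z +
      b13 * S4 x w y w + b23 * S4 x w z w) +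
    a12 * (b01 * S4 y z x y + b02 * S4 y z x z + b03 * S4 y z x w + b12 * S4 y z y z +
      b13 * S4 y z y w + b23 * S4 y z z w) +
    a13 * (b01 * S4 y w x y + b02 * S4 y w x z + b03 * S4 y w x w + b12 * S4 y w y z +
      b13 * S4 y w y w + b23 * S4 y w z w) +
    a23 * (b01 * S4 z w x y + b02 * S4 z w x z + b03 * S4 z w x w + b12 * S4 z w y z +
      b13 * S4 z w y w + b23 * S4 z w z w)
  · simp only [S4]
    ring
  · rw [S4_1 x y y, S4_1 x y z, S4_1 x y w, S4_2 x y z, S4_2 x y w,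
      S4_1 x z y, S4_1 x z z, S4_1 x z w, S4_4 x z y, S4_2 x z w,
      S4_1 x w y, S4_1 x w z, S4_1 x w w, S4_4 x w y, S4_4 x w z,
      S4_3 y z x, S4_4 y z x, S4_1 y z z, S4_1 y z w, S4_2 y z w,
      S4_3 y w x, S4_4 y w x, S4_1 y w z, S4_1 y w w, S4_4 y w z,
      S4_3 z w x, S4_4 z w x, S4_3 z w y, S4_4 z w y, S4_1 z w w,
      S4_5 x y z w, S4_7 x y z w, S4_8 x y z w, S4_9 x y z w, S4_6 x y z w]
    ring

end Vale.Agent.P281.H4.TS
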