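import Vale.Agent.P281.H64.TS.Spec

/-!
# P281, T-S, block C5: pointwise algebra of real 2-forms on `ℂ²`
-/

open Set Filter Metric MeasureTheory Vale.Agent.P272.K
open scoped Topology ContDiff ComplexConjugate ComplexOrder

noncomputable section

namespace Vale.Agent.P281.H4.TS

open Vale.Agent.P281.H64.TK.TS

theorem rb_dec (u : Cm 2) :
    u = (u 0).re • rb2 0 + (u 0).im • rb2 1 + (u 1).re • rb2 2 + (u 1).im • rb2 3 := by
  funext k
  fin_cases k <;> simp [rb2, Complex.re_add_im]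

theorem sf2_apply (s : ℂ) (u v : Cm 2) : sf2 s u v = s * (u 0 * v 1 - u 1 * v 0) := rfl

theorem kf2_apply (w : Matrix (Fin 2) (Fin 2) ℂ) (u v : Cm 2) :
    kf2 w u v = Complex.I / 2 *
      ∑ j, ∑ k, w j k * (u j * conj (v k) - v j * conj (u k)) := rfl

/-- A real alternating bilinear form in coordinates. -/
theorem expand (γ : L2 2) (hγ : ∀ u v, γ u v = - γ v u) (u v : Cm 2) : γ u v =
      (((u 0).re * (v 0).im - (u 0).im * (v 0).re : ℝ) : ℂ) * γ (rb2 0) (rb2 1) +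
      (((u 0).re * (v 1).re - (u 1).re * (v 0).re : ℝ) : ℂ) * γ (rb2 0) (rb2 2) +
      (((u 0).re * (v 1).im - (u 1).im * (v 0).re : ℝ) : ℂ) * γ (rb2 0) (rb2 3) +
      (((u 0).im * (v 1).re - (u 1).re * (v 0).im : ℝ) : ℂ) * γ (rb2 1) (rb2 2) +
      (((u 0).im * (v 1).im - (u 1).im * (v 0).im : ℝ) : ℂ) * γ (rb2 1) (rb2 3) +
      (((u 1).re * (v 1).im - (u 1).im * (v 1).re : ℝ) : ℂ) * γ (rb2 2) (rb2 3) := by
  have hz : ∀ x, γ x x = 0 := by
    intro x
    have := hγ x x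
    have h2 : (2 : ℂ) * γ x x = 0 := by linear_combination this
    simpa using h2
  conv_lhs => rw [rb_dec u, rb_dec v]
  simp only [map_add, map_smul, add_apply, smul_apply,
    Complex.real_smul, smul_add, hz, hγ (rb2 1) (rb2 0), hγ (rb2 2) (rb2 0),
    hγ (rb2 3) (rb2 0), hγ (rb2 2) (rb2 1), hγ (rb2 3) (rb2 1), hγ (rb2 3) (rb2 2)]
  push_cast
  ring

theorem rb0 : rb2 0 = Pi.single 0 1 := rfl
theorem rb1 : rb2 1 = Pi.single 0 Complex.I := rfl
theorem rb2' : rb2 2 = Pi.single 1 1 := rfl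
theorem rb3 : rb2 3 = Pi.single 1 Complex.I := rfl

theorem kf_alt (w : Matrix (Fin 2) (Fin 2) ℂ) (u v : Cm 2) : kf2 w u v = - kf2 w v u := by
  rw [kf2_apply, kf2_apply]
  simp only [Fin.sum_univ_two]
  ring

theorem sf_alt (s : ℂ) (u v : Cm 2) : sf2 s u v = - sf2 s v u := by
  rw [sf2_apply, sf2_apply]
  ring

/-- The matrix of the `(1,1)`-part. -/
def HM (p q r t x v : ℝ) : Matrix (Fin 2) (Fin 2) ℂ :=
  !![(p : ℂ), (((r - t) / 2 : ℝ) : ℂ) - (((q + x) / 2 : ℝ) : ℂ) * Complex.I;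
    (((r - t) / 2 : ℝ) : ℂ) + (((q + x) / 2 : ℝ) : ℂ) * Complex.I, (v : ℂ)]

/-- The coefficient of the `(2,0)`-part. -/
def SC (q r t x : ℝ) : ℂ := (((q - x) / 4 : ℝ) : ℂ) - (((r + t) / 4 : ℝ) : ℂ) * Complex.I

theorem SC_re (q r t x : ℝ) : (SC q r t x).re = (q - x) / 4 := by
  rw [SC, Complex.sub_re, Complex.ofReal_re, Complex.re_ofReal_mul, Complex.I_re]
  ring

theorem SC_im (q r t x : ℝ) : (SC q r t x).im = -((r + t) / 4) := by
  rw [SC, Complex.sub_im, Complex.ofReal_im, Complex.im_ofReal_mul, Complex.I_im]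
  ring

theorem HM_re (p q r t x v : ℝ) (j k : Fin 2) : (HM p q r t x v j k).re =
    (!![p, (r - t) / 2; (r - t) / 2, v] : Matrix (Fin 2) (Fin 2) ℝ) j k := by
  fin_cases j <;> fin_cases k <;>
    simp [HM, Complex.add_re, Complex.sub_re, Complex.re_ofReal_mul, -Complex.ofReal_div,
      -Complex.ofReal_sub, -Complex.ofReal_add]

theorem HM_im (p q r t x v : ℝ) (j k : Fin 2) : (HM p q r t x v j k).im =
    (!![0, -((q + x) / 2); (q + x) / 2, 0] : Matrix (Fin 2) (Fin 2) ℝ) j k := by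
  fin_cases j <;> fin_cases k <;>
    simp [HM, Complex.add_im, Complex.sub_im, Complex.im_ofReal_mul, -Complex.ofReal_div,
      -Complex.ofReal_sub, -Complex.ofReal_add]

theorem HM_herm (p q r t x v : ℝ) : (HM p q r t x v).IsHermitian := by
  ext i j
  rw [Matrix.conjTranspose_apply]
  apply Complex.ext
  · rw [RCLike.star_def, Complex.conj_re, HM_re, HM_re]
    fin_cases i <;> fin_cases j <;> rfl
  · rw [RCLike.star_def, Complex.conj_im, HM_im, HM_im]
    fin_cases i <;> fin_cases j <;> simp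

theorem trace_sq_nonneg (w H : Matrix (Fin 2) (Fin 2) ℂ) (hw : w.PosDef) (hH : H.IsHermitian) :
    0 ≤ (w⁻¹ * H * (w⁻¹ * H)).trace := by
  obtain ⟨B, hBh, hB⟩ : ∃ B : Matrix (Fin 2) (Fin 2) ℂ, B.IsHermitian ∧ B * B = w⁻¹ := by
    open scoped MatrixOrder in
    exact ⟨CFC.sqrt w⁻¹, (Matrix.nonneg_iff_posSemidef.mp (CFC.sqrt_nonneg w⁻¹)).isHermitian,
      CFC.sqrt_mul_sqrt_self w⁻¹ hw.inv.posSemidef.nonneg⟩
  have h1 : (w⁻¹ * H * (w⁻¹ * H)).trace = ((B * H * B).conjTranspose * (B * H * B)).trace := by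
    have e : (B * H * B).conjTranspose = B * H * B := by
      rw [Matrix.conjTranspose_mul, Matrix.conjTranspose_mul, hH.eq, hBh.eq, Matrix.mul_assoc]
    rw [e, ← hB]
    have e1 : B * B * H * (B * B * H) = B * (B * H * B * (B * H)) := by
      simp only [Matrix.mul_assoc]
    have e2 : B * H * B * (B * H * B) = B * H * B * (B * H) * B := by
      simp only [Matrix.mul_assoc]
    rw [e1, e2, Matrix.trace_mul_comm]
  rw [h1]
  exact (Matrix.posSemidef_conjTranspose_mul_self _).trace_nonneg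

theorem det_trace (w H : Matrix (Fin 2) (Fin 2) ℂ) (hw : w.det ≠ 0) :
    2 * H.det = w.det * (((w⁻¹ * H).trace) ^ 2 - (w⁻¹ * H * (w⁻¹ * H)).trace) := by
  have h : ∀ M : Matrix (Fin 2) (Fin 2) ℂ, M.trace ^ 2 - (M * M).trace = 2 * M.det := by
    intro M
    rw [Matrix.trace_fin_two, Matrix.trace_fin_two, Matrix.det_fin_two]
    simp only [Matrix.mul_apply, Fin.sum_univ_two]
    ring
  rw [h, Matrix.det_mul, Matrix.det_nonsing_inv, Ring.inverse_eq_inv']
  field_simp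

theorem det_mul_trace (w H : Matrix (Fin 2) (Fin 2) ℂ) (hw : w.det ≠ 0) :
    w.det * (w⁻¹ * H).trace = w 1 1 * H 0 0 - w 0 1 * H 1 0 - w 1 0 * H 0 1 + w 0 0 * H 1 1 := by
  rw [Matrix.inv_def, Ring.inverse_eq_inv', Matrix.smul_mul, Matrix.trace_smul, smul_eq_mul,
    ← mul_assoc, mul_inv_cancel₀ hw, one_mul, Matrix.adjugate_fin_two, Matrix.trace_fin_two]
  simp only [Matrix.mul_apply, Fin.sum_univ_two, Matrix.of_apply, Matrix.cons_val', Matrix.cons_val_zero,
    Matrix.cons_val_one, Matrix.cons_val_fin_one]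
  ring

theorem alg : AlgStmt := by
  intro α hα hre
  obtain ⟨p, hp⟩ : ∃ p : ℝ, α (rb2 0) (rb2 1) = p := ⟨_, (Complex.conj_eq_iff_re.mp (Complex.conj_eq_iff_im.mpr (hre _ _))).symm⟩
  obtain ⟨q, hq⟩ : ∃ p : ℝ, α (rb2 0) (rb2 2) = p := ⟨_, (Complex.conj_eq_iff_re.mp (Complex.conj_eq_iff_im.mpr (hre _ _))).symm⟩
  obtain ⟨r, hr⟩ : ∃ p : ℝ, α (rb2 0) (rb2 3) = p := ⟨_, (Complex.conj_eq_iff_re.mp (Complex.conj_eq_iff_im.mpr (hre _ _))).symm⟩
  obtain ⟨t, ht⟩ : ∃ p : ℝ, α (rb2 1) (rb2 2) = p := ⟨_, (Complex.conj_eq_iff_re.mp (Complex.conj_eq_iff_im.mpr (hre _ _))).symm⟩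
  obtain ⟨x, hx⟩ : ∃ p : ℝ, α (rb2 1) (rb2 3) = p := ⟨_, (Complex.conj_eq_iff_re.mp (Complex.conj_eq_iff_im.mpr (hre _ _))).symm⟩
  obtain ⟨v, hv⟩ : ∃ p : ℝ, α (rb2 2) (rb2 3) = p := ⟨_, (Complex.conj_eq_iff_re.mp (Complex.conj_eq_iff_im.mpr (hre _ _))).symm⟩
  refine ⟨SC q r t x, HM p q r t x v, HM_herm p q r t x v, ?_, ?_, ?_, ?_⟩
  · intro a b
    rw [expand α hα, hp, hq, hr, ht, hx, hv, sf2_apply, kf2_apply]
    apply Complex.ext
    · simp only [Fin.sum_univ_two, Complex.add_re, Complex.sub_re, Complex.mul_re, Complex.add_im,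
        Complex.sub_im, Complex.mul_im, Complex.conj_re, Complex.conj_im, SC_re, SC_im, HM_re, HM_im,
        Complex.ofReal_re, Complex.ofReal_im, Complex.div_re, Complex.div_im, Complex.I_re,
        Complex.I_im, Matrix.of_apply, Matrix.cons_val', Matrix.cons_val_zero,
        Matrix.cons_val_one, Matrix.cons_val_fin_one, Complex.re_ofNat, Complex.im_ofNat,
        Complex.normSq_ofNat]
      ring
    · simp only [Fin.sum_univ_two, Complex.add_re, Complex.sub_re, Complex.mul_re, Complex.add_im,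
        Complex.sub_im, Complex.mul_im, Complex.conj_re, Complex.conj_im, SC_re, SC_im, HM_re, HM_im,
        Complex.ofReal_re, Complex.ofReal_im, Complex.div_re, Complex.div_im, Complex.I_re,
        Complex.I_im, Matrix.of_apply, Matrix.cons_val', Matrix.cons_val_zero,
        Matrix.cons_val_one, Matrix.cons_val_fin_one, Complex.re_ofNat, Complex.im_ofNat,
        Complex.normSq_ofNat]
      ring
  · rw [wd, hp, hq, hr, ht, hx, hv]
    have : (‖SC q r t x‖ ^ 2 : ℝ) = ((q - x) / 4) ^ 2 + ((r + t) / 4) ^ 2 := by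
      rw [← Complex.normSq_eq_norm_sq, Complex.normSq_apply, SC_re, SC_im]
      ring
    rw [this, Matrix.det_fin_two]
    simp only [HM, Matrix.of_apply, Matrix.cons_val', Matrix.cons_val_zero, Matrix.cons_val_one,
      Matrix.cons_val_fin_one]
    push_cast
    linear_combination (-((q + x) / 2 : ℂ) ^ 2 * 2) * Complex.I_sq
  · intro w hw
    have hd : w.det ≠ 0 := hw.det_pos.ne'
    refine ⟨?_, det_trace _ _ hd, trace_sq_nonneg _ _ hw (HM_herm p q r t x v)⟩
    obtain ⟨b, c, h01⟩ : ∃ b c : ℝ, w 0 1 = (b : ℂ) + (c : ℂ) * Complex.I :=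
      ⟨_, _, (Complex.re_add_im _).symm⟩
    have h10 : w 1 0 = (b : ℂ) - (c : ℂ) * Complex.I := by
      have : w 1 0 = conj (w 0 1) := (hw.1.apply 1 0).symm
      rw [this, h01, map_add, map_mul, Complex.conj_ofReal, Complex.conj_ofReal, Complex.conj_I]
      ring
    obtain ⟨a, h00⟩ : ∃ a : ℝ, w 0 0 = (a : ℂ) :=
      ⟨_, (Complex.conj_eq_iff_re.mp (hw.1.apply 0 0)).symm⟩
    obtain ⟨d, h11⟩ : ∃ d : ℝ, w 1 1 = (d : ℂ) :=
      ⟨_, (Complex.conj_eq_iff_re.mp (hw.1.apply 1 1)).symm⟩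
    have k01 : kf2 w (rb2 0) (rb2 1) = a := by
      simp [kf2_apply, Fin.sum_univ_two, rb2, h00, h01, h10, h11]
      linear_combination (-(a : ℂ)) * Complex.I_sq
    have k02 : kf2 w (rb2 0) (rb2 2) = -(c : ℂ) := by
      simp [kf2_apply, Fin.sum_univ_two, rb2, h00, h01, h10, h11]
      linear_combination (c : ℂ) * Complex.I_sq
    have k03 : kf2 w (rb2 0) (rb2 3) = b := by
      simp [kf2_apply, Fin.sum_univ_two, rb2, h00, h01, h10, h11]
      linear_combination (-(b : ℂ)) * Complex.I_sq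
    have k12 : kf2 w (rb2 1) (rb2 2) = -(b : ℂ) := by
      simp [kf2_apply, Fin.sum_univ_two, rb2, h00, h01, h10, h11]
      linear_combination (b : ℂ) * Complex.I_sq
    have k13 : kf2 w (rb2 1) (rb2 3) = -(c : ℂ) := by
      simp [kf2_apply, Fin.sum_univ_two, rb2, h00, h01, h10, h11]
      linear_combination (c : ℂ) * Complex.I_sq
    have k23 : kf2 w (rb2 2) (rb2 3) = d := by
      simp [kf2_apply, Fin.sum_univ_two, rb2, h00, h01, h10, h11]
      linear_combination (-(d : ℂ)) * Complex.I_sq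
    rw [det_mul_trace _ _ hd, wd, hp, hq, hr, ht, hx, hv, k01, k02, k03, k12, k13, k23, h00, h01,
      h10, h11]
    simp only [HM, Matrix.of_apply, Matrix.cons_val', Matrix.cons_val_zero, Matrix.cons_val_one,
      Matrix.cons_val_fin_one]
    push_cast
    linear_combination ((c : ℂ) * (q + x)) * Complex.I_sq
  · intro s'
    have hc : conj (SC q r t x) = (((q - x) / 4 : ℝ) : ℂ) + (((r + t) / 4 : ℝ) : ℂ) * Complex.I := by
      apply Complex.ext
      · rw [Complex.conj_re, SC_re, Complex.add_re, Complex.ofReal_re, Complex.re_ofReal_mul,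
          Complex.I_re]
        ring
      · rw [Complex.conj_im, SC_im, Complex.add_im, Complex.ofReal_im, Complex.im_ofReal_mul,
          Complex.I_im]
        ring
    rw [wd, hp, hq, hr, ht, hx, hv, hc]
    simp only [sf2_apply, rb2, Matrix.cons_val_zero, Matrix.cons_val_one, Matrix.cons_val,
      Pi.single_eq_same, Pi.single_apply]
    norm_num
    ring_nf

end Vale.Agent.P281.H4.TS
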